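import Vale.Agent.P298.Stmt

namespace Vale.Agent.P298

/-- The `2 × 2` minor `∂f/∂xᵢ ∂g/∂xⱼ - ∂f/∂xⱼ ∂g/∂xᵢ` of the Jacobian matrix of `(f, g)`. -/
noncomputable def minor2 {n : ℕ} (i j : Fin n) (f g : (Fin n → ℂ) → ℂ) (x : Fin n → ℂ) : ℂ :=
  pd i f x * pd j g x - pd j f x * pd i g x

/-- The Jacobian determinant of `(f, g, h) : ℂ³ → ℂ³`. -/
noncomputable def jac3 (f g h : (Fin 3 → ℂ) → ℂ) (x : Fin 3 → ℂ) : ℂ :=
  Matrix.det (Matrix.of fun i j : Fin 3 => pd j (![f, g, h] i) x)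

end Vale.Agent.P298
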