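import Vale.Agent.P298.MathlibUsed

namespace Vale.Agent.P298

open Filter Topology Metric

/-- `f` is holomorphic near `0 ∈ ℂⁿ`. -/
def Hol {n : ℕ} (f : (Fin n → ℂ) → ℂ) : Prop := AnalyticAt ℂ f 0

/-- The germ of `f` at `0` lies in the ideal `(s₁, …, s_k)` of the ring `O` of germs at `0` of
holomorphic functions on `ℂⁿ`. -/
def InIdeal {n k : ℕ} (s : Fin k → (Fin n → ℂ) → ℂ) (f : (Fin n → ℂ) → ℂ) : Prop :=
  ∃ a : Fin k → (Fin n → ℂ) → ℂ, (∀ j, Hol (a j)) ∧ ∀ᶠ x in 𝓝 0, f x = ∑ j, a j x * s j x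

/-- `dim_ℂ O / (s₁, …, s_k) = d < ∞`: there are `d` germs whose classes form a basis of the vector
space `O / (s₁, …, s_k)`. -/
def Colength {n k : ℕ} (s : Fin k → (Fin n → ℂ) → ℂ) (d : ℕ) : Prop :=
  ∃ b : Fin d → (Fin n → ℂ) → ℂ, (∀ i, Hol (b i)) ∧
    ∀ f, Hol f → ∃! c : Fin d → ℂ, InIdeal s (fun x => f x - ∑ i, c i * b i x)

/-- The partial derivative `∂f/∂xᵢ`. -/
noncomputable def pd {n : ℕ} (i : Fin n) (f : (Fin n → ℂ) → ℂ) (x : Fin n → ℂ) : ℂ :=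
  fderiv ℂ f x (Pi.single i 1)

/-- The function `f` has the finite Milnor number `μ` at `0`:
`dim_ℂ O / (∂f/∂x₁, …, ∂f/∂xₙ) = μ`. -/
def Milnor {n : ℕ} (f : (Fin n → ℂ) → ℂ) (μ : ℕ) : Prop :=
  Colength (fun i => pd i f) μ

/-- The family `f_t = F(·, t)`, `|t| < r`, of functions near `0 ∈ ℂⁿ` is holomorphic near
`{0} × Δ`, where `Δ` is the disk of radius `r`, and `f_t(0) = 0` for every `t ∈ Δ`. -/
def IsHolFamily {n : ℕ} (r : ℝ) (F : (Fin n → ℂ) → ℂ → ℂ) : Prop :=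
  ∀ t ∈ ball (0 : ℂ) r,
    AnalyticAt ℂ (fun p : (Fin n → ℂ) × ℂ => F p.1 p.2) (0, t) ∧ F 0 t = 0

/-- Topological right-triviality of the family `f_t = F(·, t)`: after shrinking the disk there
is a homeomorphism `Φ(x, t) = (φ_t(x), t)` between open neighbourhoods of `{0} × Δ` with
`φ_t(0) = 0` and `f_t(φ_t(x)) = f_0(x)`. -/
def TopRightTrivial {n : ℕ} (r : ℝ) (F : (Fin n → ℂ) → ℂ → ℂ) : Prop :=
  ∃ δ : ℝ, 0 < δ ∧ δ ≤ r ∧ ∃ Φ : OpenPartialHomeomorph ((Fin n → ℂ) × ℂ) ((Fin n → ℂ) × ℂ),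
    (∀ p ∈ Φ.source, p.2 ∈ ball (0 : ℂ) δ) ∧
    (∀ t ∈ ball (0 : ℂ) δ, (0, t) ∈ Φ.source ∧ Φ (0, t) = (0, t)) ∧
    (∀ p ∈ Φ.source, (Φ p).2 = p.2 ∧ F (Φ p).1 p.2 = F p.1 0)

end Vale.Agent.P298
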